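import Vale.Agent.P159.TM.H576.Inst
import Vale.Agent.P159.TM.H60.Swap
import Vale.Agent.P159.TM.H459.Ev

/-!
P159 / T1, row A6 / R8 (helper58): from a positive circuit to a positive circuit with mass.

`F = ∑ β_v d_v` (`β ≥ 0` supported in `B1`), `G = ∑ γ_v d_v` (`γ = 0` on `B2`). The part of `F`
which comes from the clusters inside `B2` has the exponential moments of `F - G` (swap of all the
other clusters). On the event of the circuit the rest of `F` is carried by the circuit's cluster.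
-/

open Finset
open scoped ENNReal

set_option linter.unusedSectionVars false
set_option linter.unusedDecidableInType false

namespace Vale.Agent.P159.TM.H58

open Vale.Agent.P159.TM.H60 Vale.Agent.P159.TM.H576
open Vale.Agent.P159.TM.H459 (plusE Blk Kc OEv)

section abs

variable {V E S : Type*} [Fintype V] [DecidableEq V] [Fintype E] [DecidableEq E]

/-- swap of a union of clusters which depends on the open edges -/
theorem Ex_flip (σ : Sys V E S) (A : Finset E → Finset V)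
    (hA : ∀ om, Disjoint om (bdE σ.s σ.t (A om))) (F : (V → S) → Finset E → ℝ≥0∞) :
    Ex σ (fun x om => F (σ.flip (A om) x) om) = Ex σ F := by
  unfold Ex
  rw [Summable.tsum_finsetSum (fun om _ => ENNReal.summable),
    Summable.tsum_finsetSum (fun om _ => ENNReal.summable)]
  refine Finset.sum_congr rfl fun om _ => ?_
  rw [← (σ.flipE (A om)).tsum_eq (fun x => ENNReal.ofReal (σ.wt om x) * F x om)]
  refine tsum_congr fun x => ?_
  show _ = ENNReal.ofReal (σ.wt om (σ.flip (A om) x)) * F (σ.flip (A om) x) om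
  rw [σ.wt_flip (hA om)]

open Classical in
/-- the sites whose cluster stays in `B2` -/
noncomputable def inn (s t : E → V) (B2 : Finset V) (om : Finset E) : Finset V :=
  univ.filter fun v => clus s t om v ⊆ B2

theorem mem_inn {s t : E → V} {B2 : Finset V} {om : Finset E} {v : V} :
    v ∈ inn s t B2 om ↔ clus s t om v ⊆ B2 := by
  classical
  simp [inn]

theorem disj_inn (s t : E → V) (B2 : Finset V) (om : Finset E) :
    Disjoint om (bdE s t (inn s t B2 om)ᶜ) := by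
  rw [Finset.disjoint_left]
  intro e he hb
  rw [mem_bdE] at hb
  apply hb
  rw [Finset.mem_compl, Finset.mem_compl, mem_inn, mem_inn]
  have h1 : clus s t om (s e) = clus s t om (t e) := by
    ext z
    rw [mem_clus, mem_clus]
    exact ⟨fun h => (Conn.edge he).symm.trans h, fun h => (Conn.edge he).trans h⟩
  rw [h1]

/-- **exponential moments of the part inside `B2`** -/
theorem exp_in (σ : Sys V E S) (g : V → ℝ) (B2 : Finset V) :
    Ex σ (fun x om => ENNReal.ofReal (Real.exp (σ.pr g (inn σ.s σ.t B2 om) x))) ≤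
      Ex σ (fun x _ => ENNReal.ofReal (Real.exp (σ.pr g univ x))) := by
  have h1 := Ex_flip σ (fun om => (inn σ.s σ.t B2 om)ᶜ) (disj_inn σ.s σ.t B2)
    (fun x _ => ENNReal.ofReal (Real.exp (σ.pr g univ x)))
  have h2 : 2 * Ex σ (fun x om => ENNReal.ofReal (Real.exp (σ.pr g (inn σ.s σ.t B2 om) x))) ≤
      2 * Ex σ (fun x _ => ENNReal.ofReal (Real.exp (σ.pr g univ x))) := by
    calc 2 * Ex σ (fun x om => ENNReal.ofReal (Real.exp (σ.pr g (inn σ.s σ.t B2 om) x)))
        = Ex σ (fun x om => 2 * ENNReal.ofReal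
            (Real.exp (σ.pr g (inn σ.s σ.t B2 om) x))) := (Ex_mul _ _).symm
      _ ≤ Ex σ (fun x om => ENNReal.ofReal (Real.exp (σ.pr g univ x)) +
            ENNReal.ofReal (Real.exp (σ.pr g univ (σ.flip (inn σ.s σ.t B2 om)ᶜ x)))) := by
          refine Ex_mono fun x om _ => ?_
          set A := inn σ.s σ.t B2 om with hA
          rw [σ.pr_split g A x, σ.pr_split g A (σ.flip Aᶜ x),
            σ.pr_flip_disj (A := Aᶜ) (B := A) disjoint_compl_right,
            σ.pr_flip_sub (A := Aᶜ) (B := Aᶜ) (Finset.Subset.refl _),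
            ← ENNReal.ofReal_add (Real.exp_pos _).le (Real.exp_pos _).le,
            show (2 : ℝ≥0∞) = ENNReal.ofReal 2 by simp,
            ← ENNReal.ofReal_mul (by norm_num)]
          refine ENNReal.ofReal_le_ofReal ?_
          rw [Real.exp_add, Real.exp_add, ← mul_add, mul_comm]
          refine mul_le_mul_of_nonneg_left ?_ (Real.exp_pos _).le
          have h3 := Real.one_le_cosh (σ.pr g Aᶜ x)
          rw [Real.cosh_eq] at h3
          linarith
      _ = Ex σ (fun x _ => ENNReal.ofReal (Real.exp (σ.pr g univ x))) +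
            Ex σ (fun x _ => ENNReal.ofReal (Real.exp (σ.pr g univ x))) := by
          rw [Ex_add]
          congr 1
      _ = _ := (two_mul _).symm
  exact (ENNReal.mul_le_mul_iff_right (by norm_num) (by norm_num)).1 h2

/-- the first exit from `B2`, inside `B4` -/
theorem exit_in {s t : E → V} {B2 B4 : Finset V} (h24 : B2 ⊆ B4)
    (hnb : ∀ y ∈ B2, ∀ z, Adj s t univ y z → z ∈ B4) {om : Finset E} {z q : V} (hz : z ∈ B2)
    (hq : q ∉ B2) (hc : Conn s t om z q) :
    ∃ q', q' ∉ B2 ∧ q' ∈ clus s t (om ∩ inE s t B4) z := by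
  have key : ∀ y, Conn s t om z y → (y ∈ B2 ∧ Conn s t (om ∩ inE s t B4) z y) ∨
      ∃ q', q' ∉ B2 ∧ q' ∈ clus s t (om ∩ inE s t B4) z := by
    intro y hy
    unfold Conn at hy
    induction hy with
    | refl => exact Or.inl ⟨hz, Conn.refl z⟩
    | @tail y w h1 h2 ih =>
      rcases ih with ⟨hy2, hcy⟩ | h
      · obtain ⟨e, he, h3⟩ := h2
        have hw4 : w ∈ B4 := hnb y hy2 w ⟨e, Finset.mem_univ e, h3⟩
        have hy4 : y ∈ B4 := h24 hy2
        have he4 : e ∈ om ∩ inE s t B4 := by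
          rw [Finset.mem_inter, mem_inE]
          rcases h3 with ⟨h5, h6⟩ | ⟨h5, h6⟩
          · rw [h5, h6]; exact ⟨he, hy4, hw4⟩
          · rw [h5, h6]; exact ⟨he, hw4, hy4⟩
        have hcw : Conn s t (om ∩ inE s t B4) z w := Relation.ReflTransGen.tail hcy ⟨e, he4, h3⟩
        by_cases hw2 : w ∈ B2
        · exact Or.inl ⟨hw2, hcw⟩
        · exact Or.inr ⟨w, hw2, mem_clus.2 hcw⟩
      · exact Or.inr h
  rcases key q hc with ⟨h, _⟩ | h
  · exact absurd h hq
  · exact h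

/-- a positive site: its local cluster is a cluster of positive open edges -/
theorem conn_loc {σ : Sys V E S} {x : V → S} {om : Finset E} (hw : σ.wt om x ≠ 0) {B4 : Finset V}
    {u v : V} (hu : 0 < σ.d (x u)) (h : Conn σ.s σ.t (om ∩ inE σ.s σ.t B4) u v) :
    Conn σ.s σ.t (plusE σ.s σ.t (fun v => σ.d (x v)) om ∩ inE σ.s σ.t B4) u v ∧
      0 < σ.d (x v) := by
  unfold Conn at h ⊢
  induction h with
  | refl => exact ⟨Relation.ReflTransGen.refl, hu⟩
  | @tail y z _ h ih =>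
    obtain ⟨ih1, ih2⟩ := ih
    obtain ⟨e, he', h⟩ := h
    obtain ⟨he, he4⟩ := Finset.mem_inter.1 he'
    have h1 := σ.sign_edge hw he
    have key : 0 < σ.d (x (σ.s e)) ∧ 0 < σ.d (x (σ.t e)) := by
      rcases h with ⟨h2, h3⟩ | ⟨h2, h3⟩
      · rw [h2] at h1 ⊢
        exact ⟨ih2, (pos_iff_pos_of_mul_pos h1).1 ih2⟩
      · rw [h3] at h1 ⊢
        exact ⟨(pos_iff_pos_of_mul_pos h1).2 ih2, ih2⟩
    refine ⟨ih1.tail ⟨e, Finset.mem_inter.2 ⟨H459.mem_plusE.2 ⟨he, key⟩, he4⟩, h⟩, ?_⟩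
    rcases h with ⟨h2, h3⟩ | ⟨h2, h3⟩
    · rw [← h3]; exact key.2
    · rw [← h2]; exact key.1

/-- **the circuit's cluster carries the part of `F` which is not inside `B2`** -/
theorem mass_det {σ : Sys V E S} {x : V → S} {om : Finset E} (hw : σ.wt om x ≠ 0)
    {B1 B2 B4 : Finset V} (h12 : B1 ⊆ B2) (h24 : B2 ⊆ B4)
    (hnb : ∀ y ∈ B2, ∀ z, Adj σ.s σ.t univ y z → z ∈ B4) {β : V → ℝ} (hβ0 : ∀ v, 0 ≤ β v)
    (hβ1 : ∀ v, v ∉ B1 → β v = 0) {H βs : ℝ} (hβs : ∀ v, β v ≤ βs) {μ : ℕ}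
    (hμ : (μ : ℝ) * βs ≤ H / 2) (hβs0 : 0 < βs)
    (hO : OEv σ.s σ.t B1 B2 B4 0 (fun v => σ.d (x v)) om) (hF : H ≤ σ.pr β univ x)
    (hin : σ.pr β (inn σ.s σ.t B2 om) x ≤ H / 2) :
    OEv σ.s σ.t B1 B2 B4 μ (fun v => σ.d (x v)) om := by
  obtain ⟨u, hu, hpos, -, hblk⟩ := hO
  refine ⟨u, hu, hpos, ?_, hblk⟩
  set K := Kc σ.s σ.t B4 (fun v => σ.d (x v)) om u with hK
  have hKpos : ∀ z ∈ K, 0 < σ.d (x z) := fun z hz =>
    H459.Kc_pos (D := fun v => σ.d (x v)) hpos hz
  -- sites outside `inn` in the support of `β`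
  have hmem : ∀ z, z ∉ inn σ.s σ.t B2 om → β z ≠ 0 → z ∈ K := by
    intro z hz hβz
    have hzB1 : z ∈ B1 := by
      by_contra h
      exact hβz (hβ1 z h)
    rw [mem_inn, Finset.not_subset] at hz
    obtain ⟨q, hq, hqB⟩ := hz
    obtain ⟨q', hq', hqc⟩ := exit_in h24 hnb (h12 hzB1) hqB (mem_clus.1 hq)
    obtain ⟨z', hz'K, hz'c⟩ := H459.meets_of_blk hblk hzB1 (self_mem_clus z) hq' hqc
    have h1 : Conn σ.s σ.t (om ∩ inE σ.s σ.t B4) z' z := (mem_clus.1 hz'c).symm
    obtain ⟨h2, _⟩ := conn_loc hw (hKpos z' hz'K) h1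
    have h3 : Conn σ.s σ.t (plusE σ.s σ.t (fun v => σ.d (x v)) om ∩ inE σ.s σ.t B4) u z' :=
      mem_clus.1 hz'K
    exact mem_clus.2 (h3.trans h2)
  have h1 : H / 2 ≤ σ.pr β (inn σ.s σ.t B2 om)ᶜ x := by
    have := σ.pr_split β (inn σ.s σ.t B2 om) x
    linarith
  have h2 : σ.pr β (inn σ.s σ.t B2 om)ᶜ x ≤ σ.pr β K x := by
    unfold Sys.pr
    rw [← Finset.sum_filter_add_sum_filter_not (inn σ.s σ.t B2 om)ᶜ (fun z => β z ≠ 0)]
    have e0 : ∑ z ∈ (inn σ.s σ.t B2 om)ᶜ.filter (fun z => ¬ β z ≠ 0), β z * σ.D x z = 0 := by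
      refine Finset.sum_eq_zero fun z hz => ?_
      rw [Finset.mem_filter, not_not] at hz
      rw [hz.2, zero_mul]
    rw [e0, add_zero]
    refine Finset.sum_le_sum_of_subset_of_nonneg (fun z hz => ?_) fun z hz _ => ?_
    · rw [Finset.mem_filter, Finset.mem_compl] at hz
      exact hmem z hz.1 hz.2
    · refine mul_nonneg (hβ0 z) ?_
      unfold Sys.D
      exact_mod_cast (hKpos z hz).le
  have h3 : σ.pr β K x ≤ βs * ((∑ z ∈ K, (σ.d (x z)).natAbs : ℕ) : ℝ) := by
    unfold Sys.pr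
    push_cast
    rw [Finset.mul_sum]
    refine Finset.sum_le_sum fun z hz => ?_
    have h4 : σ.D x z = |((σ.d (x z) : ℤ) : ℝ)| := by
      unfold Sys.D
      rw [abs_of_pos]
      exact_mod_cast hKpos z hz
    rw [h4, Nat.cast_natAbs, Int.cast_abs]
    exact mul_le_mul_of_nonneg_right (hβs z) (abs_nonneg _)
  have h5 : (μ : ℝ) * βs ≤ ((∑ z ∈ K, (σ.d (x z)).natAbs : ℕ) : ℝ) * βs := by
    rw [mul_comm _ βs, mul_comm _ βs] at *
    linarith
  have h6 := le_of_mul_le_mul_right h5 hβs0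
  exact_mod_cast h6

/-- **mass lemma, abstract form** -/
theorem mass_abs {σ : Sys V E S} {le : S → S → Prop} (M : Fk σ le)
    {B1 B2 B4 : Finset V} (h12 : B1 ⊆ B2) (h24 : B2 ⊆ B4)
    (hnb : ∀ y ∈ B2, ∀ z, Adj σ.s σ.t univ y z → z ∈ B4) {β γ : V → ℝ} (hβ0 : ∀ v, 0 ≤ β v)
    (hβ1 : ∀ v, v ∉ B1 → β v = 0) (hγ : ∀ v ∈ B2, γ v = 0) {H βs : ℝ} (hβs : ∀ v, β v ≤ βs)
    (hβs0 : 0 < βs) {μ : ℕ} (hμ : (μ : ℝ) * βs ≤ H / 2) {p q : ℝ≥0∞} {θ K : ℝ} (hθ : 0 ≤ θ)
    (hp : p * Ex σ (fun _ _ => 1) ≤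
      Ex σ (fun x om => ind (OEv σ.s σ.t B1 B2 B4 0 (fun v => σ.d (x v)) om)))
    (hq : q * Ex σ (fun _ _ => 1) ≤ Ex σ (fun x _ => ind (H ≤ σ.pr β univ x)))
    (hK : Ex σ (fun x _ => ENNReal.ofReal (Real.exp (σ.pr (fun v => θ * (β v - γ v)) univ x))) ≤
      ENNReal.ofReal K * Ex σ (fun _ _ => 1)) :
    p * q * Ex σ (fun _ _ => 1) ≤
      Ex σ (fun x om => ind (OEv σ.s σ.t B1 B2 B4 μ (fun v => σ.d (x v)) om)) +
        ENNReal.ofReal (Real.exp (-(θ * (H / 2))) * K) * Ex σ (fun _ _ => 1) := by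
  set Z := Ex σ (fun _ _ => 1) with hZ
  -- positive association
  have h1 : p * q * Z ≤ Ex σ (fun x om =>
      ind (OEv σ.s σ.t B1 B2 B4 0 (fun v => σ.d (x v)) om) * ind (H ≤ σ.pr β univ x)) := by
    have hF : MonoF le fun (x : V → S) (om : Finset E) =>
        ind (OEv σ.s σ.t B1 B2 B4 0 (fun v => σ.d (x v)) om) := by
      intro x x' om om' hx ho
      exact ind_mono fun h => H459.OEv_mono (fun v => M.hd _ _ (hx v)) ho h
    have hG : MonoF le fun (x : V → S) (_ : Finset E) => ind (H ≤ σ.pr β univ x) := by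
      intro x x' om om' hx _
      refine ind_mono fun h => h.trans ?_
      refine Finset.sum_le_sum fun v _ => mul_le_mul_of_nonneg_left ?_ (hβ0 v)
      unfold Sys.D
      exact_mod_cast M.hd _ _ (hx v)
    have key := M.fkg _ _ hF hG
    have e1 : ∀ (x : V → S) (om : Finset E), ind (OEv σ.s σ.t B1 B2 B4 0
        (fun v => σ.d (x v)) (H576.plus σ x om)) =
        ind (OEv σ.s σ.t B1 B2 B4 0 (fun v => σ.d (x v)) om) := fun x om =>
      ind_congr (H459.OEv_plus (D := fun v => σ.d (x v)))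
    simp only [e1] at key
    have h2 : Z * (p * q * Z) ≤ Z * Ex σ (fun x om =>
        ind (OEv σ.s σ.t B1 B2 B4 0 (fun v => σ.d (x v)) om) * ind (H ≤ σ.pr β univ x)) := by
      calc Z * (p * q * Z) = (p * Z) * (q * Z) := by ring
        _ ≤ _ := mul_le_mul' hp hq
        _ ≤ _ := key
    exact (ENNReal.mul_le_mul_iff_right M.Z0 M.Zt).1 h2
  -- the part inside `B2`
  have h2 : Ex σ (fun x om => ind (H / 2 < σ.pr β (inn σ.s σ.t B2 om) x)) ≤
      ENNReal.ofReal (Real.exp (-(θ * (H / 2))) * K) * Z := by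
    have e2 : ∀ (x : V → S) (om : Finset E),
        σ.pr (fun v => θ * (β v - γ v)) (inn σ.s σ.t B2 om) x =
        θ * σ.pr β (inn σ.s σ.t B2 om) x := by
      intro x om
      unfold Sys.pr
      rw [Finset.mul_sum]
      refine Finset.sum_congr rfl fun v hv => ?_
      have : v ∈ B2 := mem_inn.1 hv (self_mem_clus v)
      show θ * (β v - γ v) * σ.D x v = θ * (β v * σ.D x v)
      rw [hγ v this]
      ring
    calc Ex σ (fun x om => ind (H / 2 < σ.pr β (inn σ.s σ.t B2 om) x))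
        ≤ Ex σ (fun x om => ENNReal.ofReal (Real.exp (-(θ * (H / 2)))) * ENNReal.ofReal
            (Real.exp (σ.pr (fun v => θ * (β v - γ v)) (inn σ.s σ.t B2 om) x))) := by
          refine Ex_mono fun x om _ => ?_
          rw [e2, ← ENNReal.ofReal_mul (Real.exp_pos _).le, ← Real.exp_add]
          by_cases h : H / 2 < σ.pr β (inn σ.s σ.t B2 om) x
          · rw [ind_true h]
            rw [← ENNReal.ofReal_one]
            refine ENNReal.ofReal_le_ofReal ?_
            rw [Real.one_le_exp_iff]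
            nlinarith
          · rw [ind_false h]
            exact bot_le
      _ = ENNReal.ofReal (Real.exp (-(θ * (H / 2)))) * Ex σ (fun x om => ENNReal.ofReal
            (Real.exp (σ.pr (fun v => θ * (β v - γ v)) (inn σ.s σ.t B2 om) x))) := Ex_mul _ _
      _ ≤ ENNReal.ofReal (Real.exp (-(θ * (H / 2)))) * (ENNReal.ofReal K * Z) :=
          mul_le_mul_right ((exp_in σ _ B2).trans hK) _
      _ = _ := by rw [ENNReal.ofReal_mul (Real.exp_pos _).le, mul_assoc]
  refine h1.trans (le_trans ?_ (add_le_add le_rfl h2))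
  rw [← Ex_add]
  refine Ex_mono fun x om hw => ?_
  rw [ind_mul]
  by_cases hO : OEv σ.s σ.t B1 B2 B4 0 (fun v => σ.d (x v)) om ∧ H ≤ σ.pr β univ x
  · rw [ind_true hO]
    by_cases hin : H / 2 < σ.pr β (inn σ.s σ.t B2 om) x
    · rw [ind_true hin]
      exact le_add_self
    · rw [ind_true (mass_det hw h12 h24 hnb hβ0 hβ1 hβs hμ hβs0 hO.1 hO.2 (not_lt.1 hin))]
      exact le_self_add
  · rw [ind_false hO]
    exact bot_le

end abs

end Vale.Agent.P159.TM.H58
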