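import Vale.Agent.P159.TM.Spec.AB

/-!
P159 / T1, row A6 / R8 (helper58): the literal output of the RSW part (circuits without mass).
-/

namespace Vale.Agent.P159.TM.H58

/-- circuits of the positive open edges of two copies around every ball of radius `ξ / A`, for
every large `A`, with a probability which does not depend on `A` (nor on the window `W`) -/
def Circ (b1 b2 a : ℝ) : Prop :=
  ∃ c : ℝ, 0 < c ∧ ∃ A₁ : ℕ, ∀ A : ℕ, A₁ ≤ A → ∃ W₀ : ℝ, ∀ W : ℝ, W₀ ≤ W → ∃ ys : ℝ, ∃ X : ℕ,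
    0 < ys ∧ ∀ (N : ℕ) [NeZero N] (b : ℝ) (hb : 0 ≤ b) (ξ : ℕ) (y : ℝ),
      Spec.Rng b1 b2 a W ys X N b ξ y → ∀ x0 : Spec.V N, c ≤ Spec.PO N b ξ hb 0 (ξ / A) 0 x0

end Vale.Agent.P159.TM.H58
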