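import Vale.Agent.P159.TM.H77.FatTor
import Vale.Agent.P159.TM.H634.E6b

/-!
P159 / T1, row A6 / R8 (helper58): two copies at background `0` from one copy: probability of a
large average, exponential moments of a difference of averages.
-/

open Finset
open scoped ENNReal

set_option linter.unusedSectionVars false
set_option linter.unusedDecidableInType false

namespace Vale.Agent.P159.TM.H58

open Vale.Agent.P159 Vale.Agent.P159.H353
open Vale.Agent.P159.TM.H60 Vale.Agent.P159.TM.H576 Vale.Agent.P159.TM.H426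
open Vale.Agent.P159.TM.H504 Vale.Agent.P159.TM.H77

section gen

variable {V E : Type*} [Fintype V] [DecidableEq V] [Fintype E] [DecidableEq E]
  {s t : E → V} {w : E → ℤ → ℝ}

/-- the total weight of two copies -/
theorem tot_two (hw0 : ∀ e n, 0 ≤ w e n) (hw : ∀ e, T1.H897.LogC (w e)) {a : V → ℤ → ℝ}
    (ha : ∀ v n, 0 ≤ a v n) (x : V → ℤ × ℤ) :
    (two s t w hw0 hw a ha).tot x =
      W1h s t w a (fun v => (x v).1) * W1h s t w a (fun v => (x v).2) := by
  unfold Sys.tot W1h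
  show (∏ e, w e ((x (t e)).1 - (x (s e)).1) * w e ((x (t e)).2 - (x (s e)).2)) *
    (∏ v, a v (x v).1 * a v (x v).2) = _
  rw [Finset.prod_mul_distrib, Finset.prod_mul_distrib]
  ring

theorem W1h_nonneg (hw0 : ∀ e n, 0 ≤ w e n) {a : V → ℤ → ℝ} (ha : ∀ v n, 0 ≤ a v n)
    (h : V → ℤ) : 0 ≤ W1h s t w a h :=
  mul_nonneg (Finset.prod_nonneg fun e _ => hw0 e _) (Finset.prod_nonneg fun v _ => ha v _)

/-- integrands which do not see the open edges -/
theorem Ex_fst {S : Type*} (σ : Sys V E S) (F : (V → S) → ℝ≥0∞) :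
    Ex σ (fun x _ => F x) = ∑' x, ENNReal.ofReal (σ.tot x) * F x := by
  unfold Ex
  refine tsum_congr fun x => ?_
  rw [← Finset.sum_mul, ← ENNReal.ofReal_sum_of_nonneg fun om _ => σ.wt_nonneg om x, σ.sum_wt]

/-- product integrands -/
theorem Ex_prod (hw0 : ∀ e n, 0 ≤ w e n) (hw : ∀ e, T1.H897.LogC (w e)) {a : V → ℤ → ℝ}
    (ha : ∀ v n, 0 ≤ a v n) (F G : (V → ℤ) → ℝ≥0∞) :
    Ex (two s t w hw0 hw a ha) (fun x _ => F (fun v => (x v).1) * G (fun v => (x v).2)) =
      (∑' h, ENNReal.ofReal (W1h s t w a h) * F h) *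
        ∑' h, ENNReal.ofReal (W1h s t w a h) * G h := by
  rw [Ex_fst, ← H60.tsum_pair]
  refine tsum_congr fun x => ?_
  rw [tot_two hw0 hw ha, ENNReal.ofReal_mul (W1h_nonneg hw0 ha _)]
  ring

/-- normalisation -/
theorem Ex_one_two (hw0 : ∀ e n, 0 ≤ w e n) (hw : ∀ e, T1.H897.LogC (w e)) {a : V → ℤ → ℝ}
    (ha : ∀ v n, 0 ≤ a v n) :
    Ex (two s t w hw0 hw a ha) (fun _ _ => 1) =
      (∑' h, ENNReal.ofReal (W1h s t w a h)) * ∑' h, ENNReal.ofReal (W1h s t w a h) := by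
  have h := Ex_prod (s := s) (t := t) hw0 hw ha (fun _ => 1) (fun _ => 1)
  simp only [mul_one] at h
  exact h

/-- **a large value of a linear functional of `d`** -/
theorem pz_two (hw0 : ∀ e n, 0 ≤ w e n) (hw : ∀ e, T1.H897.LogC (w e))
    (hev : ∀ e n, w e (-n) = w e n) {a : V → ℤ → ℝ}
    (ha : ∀ v n, 0 ≤ a v n) (hae : ∀ v n, a v (-n) = a v n) (β : V → ℝ) {H : ℝ} {q : ℝ≥0∞}
    (hq : q * ∑' h : V → ℤ, ENNReal.ofReal (W1h s t w a h) ≤
      ∑' h : V → ℤ, ENNReal.ofReal (W1h s t w a h) * ind (H ≤ ∑ v, β v * (h v : ℝ))) :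
    q / 2 * Ex (two s t w hw0 hw a ha) (fun _ _ => 1) ≤
      Ex (two s t w hw0 hw a ha) (fun x _ => ind (H ≤ (two s t w hw0 hw a ha).pr β univ x)) := by
  set Z : ℝ≥0∞ := ∑' h : V → ℤ, ENNReal.ofReal (W1h s t w a h) with hZ
  have hW : ∀ h : V → ℤ, W1h s t w a (-h) = W1h s t w a h := by
    intro h
    unfold W1h
    congr 1
    · refine Finset.prod_congr rfl fun e _ => ?_
      rw [← hev e (h (t e) - h (s e))]
      congr 1
      simp only [Pi.neg_apply]
      ring
    · exact Finset.prod_congr rfl fun v _ => hae v _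
  have hhalf : Z / 2 ≤ ∑' h : V → ℤ, ENNReal.ofReal (W1h s t w a h) *
      ind (∑ v, β v * (h v : ℝ) ≤ 0) := by
    have h1 : ∑' h : V → ℤ, ENNReal.ofReal (W1h s t w a h) *
        ind (∑ v, β v * (((-h) v : ℤ) : ℝ) ≤ 0) = ∑' h : V → ℤ, ENNReal.ofReal (W1h s t w a h) *
        ind (∑ v, β v * (h v : ℝ) ≤ 0) := by
      rw [← (Equiv.neg (V → ℤ)).tsum_eq (fun h : V → ℤ => ENNReal.ofReal (W1h s t w a h) *
        ind (∑ v, β v * (h v : ℝ) ≤ 0))]
      refine tsum_congr fun h => ?_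
      simp only [Equiv.neg_apply, hW]
    have h2 : Z ≤ 2 * ∑' h : V → ℤ, ENNReal.ofReal (W1h s t w a h) *
      ind (∑ v, β v * (h v : ℝ) ≤ 0) := by
      rw [two_mul]
      nth_rewrite 1 [← h1]
      rw [← ENNReal.tsum_add, hZ]
      refine ENNReal.tsum_le_tsum fun h => ?_
      rw [← mul_add]
      nth_rewrite 1 [← mul_one (ENNReal.ofReal (W1h s t w a h))]
      refine mul_le_mul_right ?_ _
      rcases le_total (∑ v, β v * (h v : ℝ)) 0 with h3 | h3
      · rw [ind_true h3]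
        exact le_add_self
      · have h4 : ∑ v, β v * (((-h) v : ℤ) : ℝ) ≤ 0 := by
          simp only [Pi.neg_apply, Int.cast_neg, mul_neg, Finset.sum_neg_distrib]
          linarith
        rw [ind_true h4]
        exact le_self_add
    rw [ENNReal.div_le_iff (by norm_num) (by norm_num), mul_comm]
    exact h2
  have h3 := Ex_prod (s := s) (t := t) hw0 hw ha (fun h => ind (H ≤ ∑ v, β v * (h v : ℝ)))
    (fun h => ind (∑ v, β v * (h v : ℝ) ≤ 0))
  rw [Ex_one_two, ← hZ]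
  calc q / 2 * (Z * Z) = (q * Z) * (Z / 2) := by
        rw [div_eq_mul_inv, div_eq_mul_inv]; ring
    _ ≤ _ := mul_le_mul' hq hhalf
    _ = _ := h3.symm
    _ ≤ _ := by
        refine Ex_mono fun x om _ => ?_
        rw [ind_mul]
        refine ind_mono fun h => ?_
        have e1 : (two s t w hw0 hw a ha).pr β univ x =
            (∑ v, β v * (((x v).1 : ℤ) : ℝ)) - ∑ v, β v * (((x v).2 : ℤ) : ℝ) := by
          unfold Sys.pr Sys.D
          rw [← Finset.sum_sub_distrib]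
          refine Finset.sum_congr rfl fun v _ => ?_
          show β v * ((((x v).1 - (x v).2 : ℤ)) : ℝ) = _
          push_cast
          ring
        rw [e1]
        linarith [h.1, h.2]

/-- **exponential moments of a linear functional of `d`** -/
theorem exp_two (hw0 : ∀ e n, 0 ≤ w e n) (hw : ∀ e, T1.H897.LogC (w e)) {a : V → ℤ → ℝ}
    (ha : ∀ v n, 0 ≤ a v n) (g : V → ℝ) {K : ℝ}
    (h1 : ∑' h : V → ℤ, ENNReal.ofReal (W1h s t w a h) *
        ENNReal.ofReal (Real.exp (∑ v, g v * (h v : ℝ))) ≤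
      ENNReal.ofReal (Real.exp K) * ∑' h : V → ℤ, ENNReal.ofReal (W1h s t w a h))
    (h2 : ∑' h : V → ℤ, ENNReal.ofReal (W1h s t w a h) *
        ENNReal.ofReal (Real.exp (-∑ v, g v * (h v : ℝ))) ≤
      ENNReal.ofReal (Real.exp K) * ∑' h : V → ℤ, ENNReal.ofReal (W1h s t w a h)) :
    Ex (two s t w hw0 hw a ha) (fun x _ => ENNReal.ofReal (Real.exp
        ((two s t w hw0 hw a ha).pr g univ x))) ≤
      ENNReal.ofReal (Real.exp (2 * K)) * Ex (two s t w hw0 hw a ha) (fun _ _ => 1) := by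
  have h3 := Ex_prod (s := s) (t := t) hw0 hw ha
    (fun h => ENNReal.ofReal (Real.exp (∑ v, g v * (h v : ℝ))))
    (fun h => ENNReal.ofReal (Real.exp (-∑ v, g v * (h v : ℝ))))
  have e : ∀ x : V → ℤ × ℤ, ENNReal.ofReal (Real.exp ((two s t w hw0 hw a ha).pr g univ x)) =
      ENNReal.ofReal (Real.exp (∑ v, g v * (((x v).1 : ℤ) : ℝ))) *
        ENNReal.ofReal (Real.exp (-∑ v, g v * (((x v).2 : ℤ) : ℝ))) := by
    intro x
    rw [← ENNReal.ofReal_mul (Real.exp_pos _).le, ← Real.exp_add]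
    congr 2
    unfold Sys.pr Sys.D
    rw [← sub_eq_add_neg, ← Finset.sum_sub_distrib]
    refine Finset.sum_congr rfl fun v _ => ?_
    show g v * ((((x v).1 - (x v).2 : ℤ)) : ℝ) = _
    push_cast
    ring
  simp only [e]
  rw [h3, Ex_one_two, two_mul, Real.exp_add, ENNReal.ofReal_mul (Real.exp_pos _).le]
  refine (mul_le_mul' h1 h2).trans (le_of_eq ?_)
  ring

end gen

/-! ### the flow between a box and an `L`-shaped region -/

section flow

variable {n : ℕ} [NeZero n] {E : Type} [Fintype E] [DecidableEq E]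
  {s t : E → ZMod n × ZMod n}

/-- the weights: uniform on the box of side `L`, minus uniform on the box of side `2K` without the
box of side `K` (same lower left corner) -/
theorem flow_L {p q : ℤ} {L K : ℕ} (hL : 1 ≤ L) (hLK : L ≤ K) {j : (ℤ × ℤ) × Bool → E}
    (G : Grid s t p q (2 * K) j) (hn : 2 * K ≤ n) :
    ∃ α : E → ℝ, (∀ u : ZMod n × ZMod n → ℝ, ∑ e, α e * (u (t e) - u (s e)) =
        bav n p q L u - (4 / 3 * bav n p q (2 * K) u - 1 / 3 * bav n p q K u)) ∧
      (∀ e, |α e| ≤ 3 / L) ∧ ∑ e, α e ^ 2 ≤ 2 * (K / L + 1) + 11 := by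
  have hL0 : (0 : ℝ) < L := by exact_mod_cast hL
  have hK0 : (0 : ℝ) < K := by exact_mod_cast (hL.trans hLK)
  have hLK' : (L : ℝ) ≤ K := by exact_mod_cast hLK
  obtain ⟨a, b, h1, h2, h3, h4⟩ := box_flow p q hL hLK
  obtain ⟨a', b', h1', h2', h3', h4'⟩ := box_flow p q (hL.trans hLK) (Nat.le_mul_of_pos_left K two_pos)
  obtain ⟨α, g1, g2, g3⟩ := grid_flow (G.mono (Nat.le_mul_of_pos_left K two_pos))
    ((Nat.le_mul_of_pos_left K two_pos).trans hn) a b (by positivity : (0 : ℝ) ≤ 1 / L) h2 h3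
  obtain ⟨α', g1', g2', g3'⟩ := grid_flow G hn a' b' (by positivity : (0 : ℝ) ≤ 1 / K) h2' h3'
  refine ⟨fun e => α e + 4 / 3 * α' e, fun u => ?_, fun e => ?_, ?_⟩
  · have e1 : ∑ e, (α e + 4 / 3 * α' e) * (u (t e) - u (s e)) =
        ∑ e, α e * (u (t e) - u (s e)) + 4 / 3 * ∑ e, α' e * (u (t e) - u (s e)) := by
      rw [Finset.mul_sum, ← Finset.sum_add_distrib]
      exact Finset.sum_congr rfl fun e _ => by ring
    rw [e1, g1 u, g1' u, h1, h1']
    unfold bav
    ring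
  · calc |α e + 4 / 3 * α' e| ≤ |α e| + |4 / 3 * α' e| := abs_add_le _ _
      _ = |α e| + 4 / 3 * |α' e| := by rw [abs_mul, abs_of_pos (by norm_num : (0 : ℝ) < 4 / 3)]
      _ ≤ 1 / L + 4 / 3 * (1 / K) := add_le_add (g2 e)
          (mul_le_mul_of_nonneg_left (g2' e) (by norm_num))
      _ ≤ 1 / L + 4 / 3 * (1 / L) := by
          have := one_div_le_one_div_of_le hL0 hLK'
          linarith
      _ ≤ 3 / L := by
          have h5 : 1 / (L : ℝ) + 4 / 3 * (1 / L) = 7 / 3 / L := by ring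
          rw [h5]
          exact div_le_div_of_nonneg_right (by norm_num) hL0.le
  · have h5 : Fe p q (2 * K) a' b' ≤ 3 := by
      refine h4'.trans (le_of_eq ?_)
      push_cast
      field_simp
      norm_num
    calc ∑ e, (α e + 4 / 3 * α' e) ^ 2
        ≤ ∑ e, (2 * α e ^ 2 + 32 / 9 * α' e ^ 2) := by
          refine Finset.sum_le_sum fun e _ => ?_
          nlinarith [sq_nonneg (α e - 4 / 3 * α' e)]
      _ = 2 * ∑ e, α e ^ 2 + 32 / 9 * ∑ e, α' e ^ 2 := by
          rw [Finset.sum_add_distrib, Finset.mul_sum, Finset.mul_sum]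
      _ ≤ 2 * (K / L + 1) + 32 / 9 * 3 := by
          rw [g3, g3']
          exact add_le_add (mul_le_mul_of_nonneg_left h4 (by norm_num))
            (mul_le_mul_of_nonneg_left h5 (by norm_num))
      _ ≤ _ := by linarith

/-- **exponential moments of the difference, one copy** -/
theorem exp_L {p q : ℤ} {L K : ℕ} (hL : 1 ≤ L) (hLK : L ≤ K) (hK3 : K ≤ 3 * L)
    {j : (ℤ × ℤ) × Bool → E} (G : Grid s t p q (2 * K) j) (hn : 2 * K ≤ n)
    {b : E → ℝ} {bb : ℝ} (hb : ∀ e, 0 ≤ b e) (hbb : ∀ e, b e ≤ bb) (hbb0 : 0 ≤ bb)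
    {m : ZMod n × ZMod n → ℝ} (hm : ∀ v, 0 < m v) {θ : ℝ} (hθ : |θ| * (3 / L) ≤ 1) :
    ∑' h : ZMod n × ZMod n → ℤ, ENNReal.ofReal (W1h s t (fun e => wI (b e)) (ga m) h) *
        ENNReal.ofReal (Real.exp (θ * (bav n p q L (fun x => (h x : ℝ)) -
          (4 / 3 * bav n p q (2 * K) (fun x => (h x : ℝ)) -
            1 / 3 * bav n p q K (fun x => (h x : ℝ)))))) ≤
      ENNReal.ofReal (Real.exp (θ ^ 2 * (19 * bb))) *
        ∑' h : ZMod n × ZMod n → ℤ, ENNReal.ofReal (W1h s t (fun e => wI (b e)) (ga m) h) := by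
  classical
  have hL0 : (0 : ℝ) < L := by exact_mod_cast hL
  obtain ⟨α, h1, h2, h3⟩ := flow_L hL hLK G hn
  have hkey := bare_le s t hb ∅ (m := m) (fun x _ => hm x) (fun e => θ * α e) 0
  have e0 : ∀ (x : ZMod n × ZMod n) (l : ℤ), sA ∅ m x l = ga m x l := by
    intro x l
    unfold sA ga
    rw [if_neg (Finset.notMem_empty x)]
  have e1 : ∀ h : ZMod n × ZMod n → ℤ, ∑ e, θ * α e * ((h (t e) : ℝ) - h (s e)) +
      ∑ x, (0 : ZMod n × ZMod n → ℝ) x * h x = θ * (bav n p q L (fun x => (h x : ℝ)) -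
          (4 / 3 * bav n p q (2 * K) (fun x => (h x : ℝ)) -
            1 / 3 * bav n p q K (fun x => (h x : ℝ)))) := by
    intro h
    rw [← h1 fun x => (h x : ℝ), mul_sum]
    simp only [Pi.zero_apply, zero_mul, Finset.sum_const_zero, add_zero]
    exact sum_congr rfl fun e _ => by ring
  simp only [e0, e1] at hkey
  have hW : ∀ h : ZMod n × ZMod n → ℤ, 0 ≤ W1h s t (fun e => wI (b e)) (ga m) h := fun h =>
    mul_nonneg (Finset.prod_nonneg fun e _ => wI_nonneg (hb e) _)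
      (Finset.prod_nonneg fun x _ => (Real.exp_pos _).le)
  have hs0 : Summable fun h : ZMod n × ZMod n → ℤ => W1h s t (fun e => wI (b e)) (ga m) h := by
    have := (bare_le s t hb ∅ (m := m) (fun x _ => hm x) 0 0).1
    simp only [e0] at this
    refine this.congr fun h => ?_
    simp [W1h]
  have e2 : ∀ h : ZMod n × ZMod n → ℤ,
      ENNReal.ofReal (W1h s t (fun e => wI (b e)) (ga m) h) *
        ENNReal.ofReal (Real.exp (θ * (bav n p q L (fun x => (h x : ℝ)) -
          (4 / 3 * bav n p q (2 * K) (fun x => (h x : ℝ)) -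
            1 / 3 * bav n p q K (fun x => (h x : ℝ)))))) =
      ENNReal.ofReal (W1h s t (fun e => wI (b e)) (ga m) h *
        Real.exp (θ * (bav n p q L (fun x => (h x : ℝ)) -
          (4 / 3 * bav n p q (2 * K) (fun x => (h x : ℝ)) -
            1 / 3 * bav n p q K (fun x => (h x : ℝ)))))) := fun h =>
    (ENNReal.ofReal_mul (hW h)).symm
  rw [tsum_congr e2, ← ENNReal.ofReal_tsum_of_nonneg
    (fun h => mul_nonneg (hW h) (Real.exp_pos _).le) hkey.1,
    ← ENNReal.ofReal_tsum_of_nonneg hW hs0, ← ENNReal.ofReal_mul (Real.exp_pos _).le]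
  refine ENNReal.ofReal_le_ofReal (hkey.2.trans ?_)
  refine mul_le_mul_of_nonneg_right (Real.exp_le_exp.2 ?_) (tsum_nonneg hW)
  have h7 : ∑ x ∈ (∅ : Finset (ZMod n × ZMod n))ᶜ,
      (0 : ZMod n × ZMod n → ℝ) x ^ 2 / (2 * m x) = 0 := by
    refine Finset.sum_eq_zero fun x _ => ?_
    simp
  rw [h7, add_zero]
  have hKL : (K : ℝ) / L ≤ 3 := by
    rw [div_le_iff₀ hL0]
    exact_mod_cast hK3
  calc ∑ e, b e * (Real.cosh (θ * α e) - 1) ≤ ∑ e, bb * (θ ^ 2 * α e ^ 2) := by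
        refine sum_le_sum fun e _ => ?_
        have h5 : |θ * α e| ≤ 1 := by
          rw [abs_mul]
          exact (mul_le_mul_of_nonneg_left (h2 e) (abs_nonneg θ)).trans hθ
        have h6 := cosh_sub_one_le h5
        rw [mul_pow] at h6
        exact mul_le_mul (hbb e) h6 (by linarith [Real.one_le_cosh (θ * α e)]) hbb0
    _ = bb * (θ ^ 2 * ∑ e, α e ^ 2) := by rw [mul_sum, mul_sum]
    _ ≤ bb * (θ ^ 2 * 19) :=
        mul_le_mul_of_nonneg_left (mul_le_mul_of_nonneg_left (h3.trans (by linarith))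
          (sq_nonneg _)) hbb0
    _ = _ := by ring

end flow

end Vale.Agent.P159.TM.H58
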