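import Vale.Agent.P159.TM.H58.Spec
import Vale.Agent.P159.TM.H58.Abs
import Vale.Agent.P159.TM.H58.Two
import Vale.Agent.P159.TM.H857.H2B1

/-!
P159 / T1, row A6 / R8 (helper58): circuits with mass from circuits, on the torus.
-/

open Finset
open scoped ENNReal

set_option linter.unusedSectionVars false
set_option linter.unusedDecidableInType false

namespace Vale.Agent.P159.TM.H58

open Vale.Agent.P159 Vale.Agent.P159.H353
open Vale.Agent.P159.TM.H60 Vale.Agent.P159.TM.H576 Vale.Agent.P159.TM.H426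
open Vale.Agent.P159.TM.H504 Vale.Agent.P159.TM.H77
open Vale.Agent.P159.TM.H459 (tS tT ball sd sn mem_ball ball_mono OEv)

/-! ### numbers -/

lemma num_ex {c bb : ℝ} (hc : 0 < c) (hbb : 0 < bb) (k1 : ℕ) : ∃ k : ℕ, k1 ≤ k ∧ 1 ≤ k ∧
    Real.exp (-((k : ℝ) / 8040 / (1216 * bb))) ≤
      c * ((k : ℝ) / 8040) ^ 2 / (4608 * (3 * ((k : ℝ) + 3) ^ 2 * bb + 2) ^ 2) := by
  set d : ℝ := 1 / 8040 / (1216 * bb) with hd
  have hd0 : 0 < d := by positivity
  set M : ℝ := 4608 * (3 * bb + 2) ^ 2 * 8040 ^ 2 / c with hM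
  have hM0 : 0 < M := by positivity
  obtain ⟨k0, hk0⟩ := exists_nat_ge (120 * 256 * M / d ^ 5)
  refine ⟨max k1 (k0 + 1), le_max_left _ _, le_trans (by omega) (le_max_right _ _), ?_⟩
  set k : ℕ := max k1 (k0 + 1) with hk
  have hkk : k0 + 1 ≤ k := le_max_right _ _
  have hk1 : (1 : ℝ) ≤ k := by
    have : 1 ≤ k := by omega
    exact_mod_cast this
  have hk2 : 120 * 256 * M / d ^ 5 ≤ k := by
    have : (k0 : ℝ) ≤ k := by
      have : k0 ≤ k := by omega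
      exact_mod_cast this
    linarith
  have hk3 : 120 * 256 * M ≤ k * d ^ 5 := by
    rwa [div_le_iff₀ (by positivity)] at hk2
  have h1 : (d * k) ^ 5 / 120 ≤ Real.exp (d * k) := by
    have := Real.pow_div_factorial_le_exp (d * k) (by positivity) 5
    simpa [Nat.factorial] using this
  have h2 : M * 256 * (k : ℝ) ^ 4 ≤ Real.exp (d * k) := by
    refine le_trans ?_ h1
    rw [le_div_iff₀ (by norm_num)]
    calc M * 256 * (k : ℝ) ^ 4 * 120 = 120 * 256 * M * (k : ℝ) ^ 4 := by ring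
      _ ≤ k * d ^ 5 * (k : ℝ) ^ 4 := by gcongr
      _ = (d * k) ^ 5 := by ring
  have e1 : (k : ℝ) / 8040 / (1216 * bb) = d * k := by
    rw [hd]
    field_simp
  rw [e1, Real.exp_neg, le_div_iff₀ (by positivity), inv_mul_le_iff₀ (Real.exp_pos _)]
  have h3 : 3 * ((k : ℝ) + 3) ^ 2 * bb + 2 ≤ (3 * bb + 2) * (4 * k) ^ 2 := by
    have h4 : ((k : ℝ) + 3) ^ 2 ≤ (4 * k) ^ 2 := by
      have : (k : ℝ) + 3 ≤ 4 * k := by linarith
      gcongr
    have h5 : (1 : ℝ) ≤ (4 * k) ^ 2 := by nlinarith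
    nlinarith [mul_le_mul_of_nonneg_right h4 hbb.le]
  have h6 : (3 * ((k : ℝ) + 3) ^ 2 * bb + 2) ^ 2 ≤ ((3 * bb + 2) * (4 * k) ^ 2) ^ 2 := by
    gcongr
  calc 4608 * (3 * ((k : ℝ) + 3) ^ 2 * bb + 2) ^ 2
      ≤ 4608 * ((3 * bb + 2) * (4 * k) ^ 2) ^ 2 := by linarith
    _ = (M * 256 * (k : ℝ) ^ 4) * (c * (1 / 8040) ^ 2) := by
        rw [hM]
        field_simp
        ring
    _ ≤ Real.exp (d * k) * (c * ((k : ℝ) / 8040) ^ 2) := by
        have h7 : c * (1 / 8040) ^ 2 ≤ c * ((k : ℝ) / 8040) ^ 2 := by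
          gcongr
        exact mul_le_mul h2 h7 (by positivity) (Real.exp_pos _).le

/-! ### geometry -/

section geo

variable {N : ℕ} [NeZero N]

lemma vma_pt {x j : ℤ} {R : ℕ} (hj0 : 0 ≤ j) (hjR : j + R < N)
    (h : (((x + j : ℤ) : ZMod N) - ((x : ℤ) : ZMod N)).valMinAbs.natAbs ≤ R) : j ≤ R := by
  have e : ((x + j : ℤ) : ZMod N) - ((x : ℤ) : ZMod N) = ((j : ℤ) : ZMod N) := by
    push_cast
    ring
  rw [e] at h
  set a := ((j : ℤ) : ZMod N).valMinAbs with ha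
  have h1 : ((j : ℤ) : ZMod N) = ((a : ℤ) : ZMod N) := (ZMod.coe_valMinAbs _).symm
  rw [ZMod.intCast_eq_intCast_iff_dvd_sub] at h1
  obtain ⟨t, ht⟩ := h1
  have h2 : |a| ≤ R := by
    rw [Int.abs_eq_natAbs]
    exact_mod_cast h
  rw [abs_le] at h2
  have hN : (0 : ℤ) < N := by
    have := NeZero.pos N
    exact_mod_cast this
  have h3 : t = 0 := by
    by_contra hne
    rcases lt_or_gt_of_ne hne with h4 | h4
    · have : (N : ℤ) * t ≤ (N : ℤ) * (-1) := mul_le_mul_of_nonneg_left (by omega) hN.le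
      omega
    · have : (N : ℤ) * 1 ≤ (N : ℤ) * t := mul_le_mul_of_nonneg_left (by omega) hN.le
      omega
  rw [h3, mul_zero] at ht
  omega

/-- points of the big box which are close to the corner are in the smaller box -/
lemma mem_small {p q : ℤ} {r : ℕ} (hN : 6 * r + 2 ≤ N) {z : ℤ × ℤ}
    (hz : z ∈ Bx p q (2 * (2 * r + 1))) (h : sd (pt N (p, q)) (pt N z) ≤ 2 * r) :
    z ∈ Bx p q (2 * r + 1) := by
  rw [Bx, mem_product, mem_Ico, mem_Ico] at hz ⊢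
  unfold sd sn at h
  push_cast at hz ⊢
  have h1 : ((pt N z) - pt N (p, q)).1.valMinAbs.natAbs ≤ 2 * r := (le_max_left _ _).trans h
  have h2 : ((pt N z) - pt N (p, q)).2.valMinAbs.natAbs ≤ 2 * r := (le_max_right _ _).trans h
  have k1 := vma_pt (N := N) (x := p) (j := z.1 - p) (R := 2 * r) (by omega)
    (by push_cast; omega) (by
      have : ((p + (z.1 - p) : ℤ) : ZMod N) - ((p : ℤ) : ZMod N) = (pt N z - pt N (p, q)).1 := by
        unfold pt
        simp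
      rw [this]
      exact h1)
  have k2 := vma_pt (N := N) (x := q) (j := z.2 - q) (R := 2 * r) (by omega)
    (by push_cast; omega) (by
      have : ((q + (z.2 - q) : ℤ) : ZMod N) - ((q : ℤ) : ZMod N) = (pt N z - pt N (p, q)).2 := by
        unfold pt
        simp
      rw [this]
      exact h2)
  push_cast at k1 k2
  omega

/-- the box is in the ball -/
lemma box_ball {p q : ℤ} {r : ℕ} {z : ℤ × ℤ} (hz : z ∈ Bx p q r) :
    pt N z ∈ ball (pt N (p, q)) r := by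
  rw [Bx, mem_product, mem_Ico, mem_Ico] at hz
  rw [mem_ball]
  unfold sd sn
  have e1 : (pt N z - pt N (p, q)).1 = ((z.1 - p : ℤ) : ZMod N) := by
    unfold pt
    simp
  have e2 : (pt N z - pt N (p, q)).2 = ((z.2 - q : ℤ) : ZMod N) := by
    unfold pt
    simp
  refine max_le ((H459.vma_le_of_eq _ _ e1).trans ?_) ((H459.vma_le_of_eq _ _ e2).trans ?_)
  · omega
  · omega

/-- uniform weights on a box -/
noncomputable def uB (N : ℕ) (p q : ℤ) (L : ℕ) (v : ZMod N × ZMod N) : ℝ :=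
  haveI := Classical.dec (v ∈ (Bx p q L).image (pt N))
  if v ∈ (Bx p q L).image (pt N) then 1 / (L : ℝ) ^ 2 else 0

lemma uB_nonneg (p q : ℤ) (L : ℕ) (v : ZMod N × ZMod N) : 0 ≤ uB N p q L v := by
  unfold uB
  split_ifs <;> positivity

lemma uB_le (p q : ℤ) (L : ℕ) (v : ZMod N × ZMod N) : uB N p q L v ≤ 1 / (L : ℝ) ^ 2 := by
  unfold uB
  split_ifs
  · exact le_rfl
  · positivity

lemma sum_uB {p q : ℤ} {L : ℕ} (hL : L ≤ N) (hL0 : 1 ≤ L) (u : ZMod N × ZMod N → ℝ) :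
    ∑ v, uB N p q L v * u v = bav N p q L u := by
  classical
  have h0 : (0 : ℝ) < L := by exact_mod_cast hL0
  have h1 : ∀ v, uB N p q L v * u v =
      if v ∈ (Bx p q L).image (pt N) then 1 / (L : ℝ) ^ 2 * u v else 0 := by
    intro v
    unfold uB
    split_ifs <;> simp
  rw [Finset.sum_congr rfl fun v _ => h1 v, sum_ite_mem, univ_inter, ← Finset.mul_sum,
    sum_img hL hL0 u]
  field_simp

end geo

/-! ### one torus -/

section tor

variable {N : ℕ} [NeZero N]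

lemma aT_neg {ξ : ℝ} (v : Spec.V N) (n : ℤ) : Spec.aT ξ (0 : Spec.V N → ℝ) v (-n) =
    Spec.aT ξ 0 v n := Spec.aT_even ξ v n

/-- **mass lemma on one torus** -/
theorem mass_tor {b bb : ℝ} (hb : 0 < b) (hbb : b ≤ bb) {c : ℝ} (hc : 0 < c) {k : ℕ}
    (hk1 : 1 ≤ k)
    (hk : Real.exp (-((k : ℝ) / 8040 / (1216 * bb))) ≤
      c * ((k : ℝ) / 8040) ^ 2 / (4608 * (3 * ((k : ℝ) + 3) ^ 2 * bb + 2) ^ 2))
    {ξ K : ℕ} (hN : N = K * ξ) (hK : 8 ≤ K) {W : ℝ} (hW : 8 * 2 ^ k ≤ W)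
    (h2 : H764.H2 10 W (ξ : ℝ) (Spec.GT N b ξ)) (hξ8 : 3 * (8 * 2 ^ k) ≤ ξ)
    (hξ : 8 * 2 ^ k * (3 * (Real.sqrt ((k : ℝ) / 8040 / 2) / (152 * bb)) + 1) ≤ ξ)
    (x0 : Spec.V N) (hO : c ≤ Spec.PO N b ξ hb.le 0 (ξ / (8 * 2 ^ k)) 0 x0) :
    c * ((k : ℝ) / 8040) ^ 2 / (4608 * (3 * ((k : ℝ) + 3) ^ 2 * bb + 2) ^ 2) ≤
      Spec.PO N b ξ hb.le
        ⌊Real.sqrt ((k : ℝ) / 8040 / 2) / (8 * (8 * 2 ^ k) ^ 2) * (ξ : ℝ) ^ 2⌋₊
        (ξ / (8 * 2 ^ k)) 0 x0 := by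
  classical
  have hkR : (0 : ℝ) < k := by exact_mod_cast hk1
  have hbb0 : 0 < bb := hb.trans_le hbb
  set v : ℝ := (k : ℝ) / 8040 with hv
  have hv0 : 0 < v := by positivity
  set H : ℝ := Real.sqrt (v / 2) with hH
  have hH0 : 0 < H := Real.sqrt_pos.2 (by positivity)
  have hH2 : H ^ 2 = v / 2 := Real.sq_sqrt (by positivity)
  set cc : ℝ := 3 * ((k : ℝ) + 3) ^ 2 * bb + 2 with hcc
  have hcc0 : 0 < cc := by positivity
  set A : ℕ := 8 * 2 ^ k with hA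
  have hA0 : 0 < A := by positivity
  have hAR : (0 : ℝ) < A := by exact_mod_cast hA0
  have hAc : ((A : ℕ) : ℝ) = 8 * 2 ^ k := by rw [hA]; push_cast; rfl
  set r : ℕ := ξ / A with hr
  have hr3 : 3 ≤ r := by
    rw [hr, Nat.le_div_iff_mul_le hA0]
    exact hξ8
  have hξ1 : 1 ≤ ξ := by
    have : 1 * 1 ≤ 3 * A := Nat.mul_le_mul (by norm_num) hA0
    omega
  have hξR : (0 : ℝ) < ξ := by exact_mod_cast hξ1
  have hup : A * r ≤ ξ := Nat.mul_div_le _ _
  have hlo : ξ < A * (r + 1) := Nat.lt_mul_div_succ ξ hA0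
  have hrR : (0 : ℝ) < r := by
    have : 0 < r := by omega
    exact_mod_cast this
  have hlo2 : (ξ : ℝ) ≤ 2 * (A * r) := by
    have h1 : ξ ≤ 2 * (A * r) := by
      have h3 : A * 1 ≤ A * r := Nat.mul_le_mul_left A (by omega)
      have h4 : A * (r + 1) = A * r + A := by ring
      omega
    exact_mod_cast h1
  have hupR : (A : ℝ) * r ≤ ξ := by exact_mod_cast hup
  have hr3R : (3 : ℝ) ≤ r := by exact_mod_cast hr3
  have hK1 : 8 * ξ ≤ N := by rw [hN]; exact Nat.mul_le_mul_right ξ hK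
  have hrξ : r ≤ ξ := Nat.div_le_self _ _
  have hA8 : 8 ≤ A := by
    rw [hA]
    exact Nat.le_mul_of_pos_right 8 (by positivity)
  have h8r : 8 * r ≤ ξ := (Nat.mul_le_mul_right r hA8).trans hup
  -- the corner
  set p : ℤ := (x0.1.val : ℤ) with hp
  set q : ℤ := (x0.2.val : ℤ) with hq
  have hx0 : pt N (p, q) = x0 := by
    unfold pt
    simp [hp, hq]
  -- the system
  set σ := Spec.σ2 N b ξ hb.le 0 with hσ
  have M : Fk σ le2 := H857.fk_T hb hξ1 0
  set β : Spec.V N → ℝ := uB N p q r with hβ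
  set γ : Spec.V N → ℝ := fun z => 4 / 3 * uB N p q (2 * (2 * r + 1)) z -
    1 / 3 * uB N p q (2 * r + 1) z with hγ
  have hwn : ∀ (e : Spec.E N) (n : ℤ), 0 ≤ Spec.kT b e n := fun _ n => wI_nonneg hb.le n
  have hwL : ∀ e : Spec.E N, T1.H897.LogC (Spec.kT b e) := fun _ => T1.H897.logC_wI hb.le
  have hga : Spec.aT (N := N) (ξ : ℝ) 0 = ga (SpecC.ms (ξ : ℝ)) := aT_eq _
  have hms : ∀ z : Spec.V N, 0 < SpecC.ms (ξ : ℝ) z := H857.ms_pos hξ1
  -- probability of the circuit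
  have hp' : ENNReal.ofReal c * Ex σ (fun _ _ => 1) ≤ Ex σ (fun x om =>
      ind (OEv σ.s σ.t (ball x0 r) (ball x0 (2 * r)) (ball x0 (4 * r)) 0
        (fun v => σ.d (x v)) om)) := by
    unfold Spec.PO at hO
    have hle : Ex σ (fun x om => ind (Spec.OT 0 r x0 x om)) ≤ Ex σ (fun _ _ => 1) :=
      Ex_mono fun x om _ => ind_le_one _
    have hne : Ex σ (fun x om => ind (Spec.OT 0 r x0 x om)) / Ex σ (fun _ _ => 1) ≠ ∞ :=
      ne_top_of_le_ne_top ENNReal.one_ne_top (ENNReal.div_le_of_le_mul (by rwa [one_mul]))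
    have h3 := (ENNReal.ofReal_le_iff_le_toReal hne).2 hO
    rw [ENNReal.le_div_iff_mul_le (Or.inl M.Z0) (Or.inl M.Zt)] at h3
    exact h3
  -- a large average
  have hvar := var_tor (N := N) hb.le (C2 := 10) (by norm_num) hξ1 hN (k := k) hW h2 (L := r)
    (by omega) hup p q
  have hcst : cst bb (k + 3) (1 / (ξ : ℝ) ^ 2) r = 3 * ((k : ℝ) + 3) ^ 2 * bb +
      (ξ : ℝ) ^ 2 / (2 * (A * (r : ℝ)) ^ 2) := by
    unfold cst
    push_cast
    congr 1
    rw [show ((r : ℝ) * 2 ^ (k + 3)) = A * r by rw [hAc, pow_add]; ring]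
    field_simp
  have hden : (0 : ℝ) < 2 * (A * (r : ℝ)) ^ 2 := by positivity
  have hcc1 : cst bb (k + 3) (1 / (ξ : ℝ) ^ 2) r ≤ cc := by
    rw [hcst, hcc]
    have : (ξ : ℝ) ^ 2 / (2 * (A * (r : ℝ)) ^ 2) ≤ 2 := by
      rw [div_le_iff₀ hden]
      calc (ξ : ℝ) ^ 2 ≤ (2 * (A * r)) ^ 2 := by gcongr
        _ = _ := by ring
    linarith
  have hC4 : 4 ≤ (r : ℝ) ^ 2 * cst bb (k + 3) (1 / (ξ : ℝ) ^ 2) r := by
    rw [hcst]
    have h1 : (1 : ℝ) / 2 ≤ (ξ : ℝ) ^ 2 / (2 * (A * (r : ℝ)) ^ 2) := by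
      rw [le_div_iff₀ hden]
      calc (1 : ℝ) / 2 * (2 * (A * (r : ℝ)) ^ 2) = (A * (r : ℝ)) ^ 2 := by ring
        _ ≤ (ξ : ℝ) ^ 2 := by gcongr
    have h3 : (9 : ℝ) ≤ (r : ℝ) ^ 2 := by nlinarith
    have h4 : (1 : ℝ) / 2 ≤ 3 * ((k : ℝ) + 3) ^ 2 * bb +
        (ξ : ℝ) ^ 2 / (2 * (A * (r : ℝ)) ^ 2) := by
      have : 0 ≤ 3 * ((k : ℝ) + 3) ^ 2 * bb := by positivity
      linarith
    calc (4 : ℝ) ≤ 9 * (1 / 2) := by norm_num
      _ ≤ _ := mul_le_mul h3 h4 (by norm_num) (by positivity)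
  have hnk : r * 2 ^ (k + 3) ≤ N := by
    calc r * 2 ^ (k + 3) = A * r := by rw [hA, pow_add]; ring
      _ ≤ ξ := hup
      _ ≤ 8 * ξ := by omega
      _ ≤ N := hK1
  have hpz := pz_box (s := tS (N := N)) (t := tT) (p := p) (q := q) (L := r) (by omega) (k + 3)
    (grid_tor N p q _) hnk (b := fun _ => b) (bb := bb) (fun _ => hb.le) (fun _ => hbb) hbb0.le
    (m := SpecC.ms (ξ : ℝ)) (m0 := 1 / (ξ : ℝ) ^ 2) (by positivity) (fun _ => le_rfl) hC4 hcc1
    (v := v) hv0 (by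
      have e : (k : ℝ) / (804 * 10) = v := by rw [hv]; norm_num
      rw [e] at hvar
      exact hvar)
  have hrN : r ≤ N := by omega
  have hqq : ENNReal.ofReal (v ^ 2 / (1152 * cc ^ 2)) / 2 * Ex σ (fun _ _ => 1) ≤
      Ex σ (fun x _ => ind (H ≤ σ.pr β univ x)) := by
    refine pz_two (s := tS (N := N)) (t := tT) hwn hwL (fun _ n => wI_neg _ n)
      (Spec.aT_nonneg (ξ : ℝ) 0) (fun v n => Spec.aT_even (ξ : ℝ) v n) β ?_
    rw [hga]
    refine hpz.trans (le_of_eq ?_)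
    refine tsum_congr fun h => ?_
    rw [sum_uB hrN (by omega) (fun z => ((h z : ℤ) : ℝ))]
    rfl
  -- exponential moments
  set θ : ℝ := H / (152 * bb) with hθ
  have hθ0 : 0 < θ := by positivity
  have hrθ : 3 * θ ≤ r := by
    have h1 : (A : ℝ) * (3 * θ + 1) ≤ ξ := by
      rw [hAc]
      exact hξ
    have h2 : (ξ : ℝ) < A * (r + 1) := by exact_mod_cast hlo
    have h3 : (A : ℝ) * (3 * θ + 1) < A * (r + 1) := lt_of_le_of_lt h1 h2
    have h4 := lt_of_mul_lt_mul_left h3 hAR.le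
    linarith
  have hθ1 : |θ| * (3 / r) ≤ 1 := by
    rw [abs_of_pos hθ0, ← mul_div_assoc, div_le_one hrR]
    linarith
  have h2K : 2 * (2 * r + 1) ≤ N := by omega
  have hlin : ∀ u : Spec.V N → ℝ, ∑ z, (θ * (β z - γ z)) * u z =
      θ * (bav N p q r u - (4 / 3 * bav N p q (2 * (2 * r + 1)) u -
        1 / 3 * bav N p q (2 * r + 1) u)) := by
    intro u
    rw [← sum_uB hrN (by omega) u, ← sum_uB h2K (by omega) u,
      ← sum_uB (L := 2 * r + 1) (by omega) (by omega) u]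
    simp only [Finset.mul_sum, ← Finset.sum_sub_distrib]
    refine Finset.sum_congr rfl fun z _ => ?_
    rw [hβ, hγ]
    ring
  have hexp : ∀ θ' : ℝ, |θ'| = θ → ∑' h : Spec.V N → ℤ,
      ENNReal.ofReal (W1h tS tT (Spec.kT b) (Spec.aT (ξ : ℝ) 0) h) *
        ENNReal.ofReal (Real.exp (θ' * (bav N p q r (fun x => ((h x : ℤ) : ℝ)) -
          (4 / 3 * bav N p q (2 * (2 * r + 1)) (fun x => ((h x : ℤ) : ℝ)) -
            1 / 3 * bav N p q (2 * r + 1) (fun x => ((h x : ℤ) : ℝ)))))) ≤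
      ENNReal.ofReal (Real.exp (θ ^ 2 * (19 * bb))) * ∑' h : Spec.V N → ℤ,
        ENNReal.ofReal (W1h tS tT (Spec.kT b) (Spec.aT (ξ : ℝ) 0) h) := by
    intro θ' hθ'
    rw [hga]
    have h1 := exp_L (s := tS (N := N)) (t := tT) (p := p) (q := q) (L := r) (K := 2 * r + 1)
      (by omega) (by omega) (by omega) (grid_tor N p q _) h2K (b := fun _ => b) (bb := bb)
      (fun _ => hb.le) (fun _ => hbb) hbb0.le (m := SpecC.ms (ξ : ℝ)) hms (θ := θ')
      (by rw [hθ', ← abs_of_pos hθ0]; exact hθ1)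
    have h3 : θ' ^ 2 = θ ^ 2 := by rw [← sq_abs, hθ']
    rw [h3] at h1
    exact h1
  have hKK : Ex σ (fun x _ => ENNReal.ofReal (Real.exp
      (σ.pr (fun z => θ * (β z - γ z)) univ x))) ≤
      ENNReal.ofReal (Real.exp (2 * (θ ^ 2 * (19 * bb)))) * Ex σ (fun _ _ => 1) := by
    refine exp_two (s := tS (N := N)) (t := tT) hwn hwL (Spec.aT_nonneg (ξ : ℝ) 0)
      (fun z => θ * (β z - γ z)) ?_ ?_
    · refine le_trans (le_of_eq ?_) (hexp θ (abs_of_pos hθ0))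
      refine tsum_congr fun h => ?_
      rw [hlin fun z => ((h z : ℤ) : ℝ)]
    · refine le_trans (le_of_eq ?_) (hexp (-θ) (by rw [abs_neg, abs_of_pos hθ0]))
      refine tsum_congr fun h => ?_
      rw [hlin fun z => ((h z : ℤ) : ℝ), neg_mul]
  -- the mass lemma
  set μ : ℕ := ⌊H / (8 * (8 * 2 ^ k) ^ 2) * (ξ : ℝ) ^ 2⌋₊ with hμ
  have hμ1 : (μ : ℝ) * (1 / (r : ℝ) ^ 2) ≤ H / 2 := by
    have h1 : (μ : ℝ) ≤ H / (8 * (8 * 2 ^ k) ^ 2) * (ξ : ℝ) ^ 2 := Nat.floor_le (by positivity)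
    have h3 : (ξ : ℝ) ^ 2 ≤ (2 * (A * r)) ^ 2 := by gcongr
    have h4 : H / (8 * (8 * 2 ^ k) ^ 2) * (ξ : ℝ) ^ 2 ≤ H / 2 * (r : ℝ) ^ 2 := by
      calc H / (8 * (8 * 2 ^ k) ^ 2) * (ξ : ℝ) ^ 2
          ≤ H / (8 * (8 * 2 ^ k) ^ 2) * (2 * (A * r)) ^ 2 := by gcongr
        _ = H / 2 * (r : ℝ) ^ 2 := by
            rw [← hAc]
            field_simp
            ring
    rw [mul_one_div, div_le_iff₀ (by positivity)]
    linarith
  have hB12 : ball x0 r ⊆ ball x0 (2 * r) := ball_mono (by omega)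
  have hB24 : ball x0 (2 * r) ⊆ ball x0 (4 * r) := ball_mono (by omega)
  have main := mass_abs M (B1 := ball x0 r) (B2 := ball x0 (2 * r)) (B4 := ball x0 (4 * r))
    hB12 hB24 ?_ (β := β) (γ := γ) (fun z => uB_nonneg p q r z) ?_ ?_ (H := H)
    (βs := 1 / (r : ℝ) ^ 2) (fun z => uB_le p q r z) (by positivity) hμ1 hθ0.le hp' hqq hKK
  · -- conclusion
    have e1 : Real.exp (-(θ * (H / 2))) * Real.exp (2 * (θ ^ 2 * (19 * bb))) =
        Real.exp (-(v / (1216 * bb))) := by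
      rw [← Real.exp_add]
      congr 1
      rw [hθ]
      have h3 : -(H / (152 * bb) * (H / 2)) + 2 * ((H / (152 * bb)) ^ 2 * (19 * bb)) =
          -(H ^ 2 / (608 * bb)) := by
        field_simp
        ring
      rw [h3, hH2]
      field_simp
      norm_num
    rw [e1] at main
    set c0 : ℝ := c * v ^ 2 / (4608 * cc ^ 2) with hc0
    have hc00 : 0 < c0 := by positivity
    have e3 : ENNReal.ofReal (v ^ 2 / (1152 * cc ^ 2)) / 2 =
        ENNReal.ofReal (v ^ 2 / (1152 * cc ^ 2) / 2) := by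
      rw [ENNReal.ofReal_div_of_pos (x := v ^ 2 / (1152 * cc ^ 2)) (by norm_num : (0 : ℝ) < 2)]
      norm_num
    have e2 : ENNReal.ofReal c * (ENNReal.ofReal (v ^ 2 / (1152 * cc ^ 2)) / 2) =
        ENNReal.ofReal c0 + ENNReal.ofReal c0 := by
      rw [← ENNReal.ofReal_add hc00.le hc00.le, e3, ← ENNReal.ofReal_mul hc.le]
      congr 1
      rw [hc0]
      have hcc2 : cc ≠ 0 := by
        intro h0
        rw [hc0, h0] at hc00
        simp at hc00
      field_simp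
      norm_num
    rw [e2, add_mul] at main
    have h3 : ENNReal.ofReal (Real.exp (-(v / (1216 * bb)))) * Ex σ (fun _ _ => 1) ≤
        ENNReal.ofReal c0 * Ex σ (fun _ _ => 1) :=
      mul_le_mul' (ENNReal.ofReal_le_ofReal hk) le_rfl
    have h4 := main.trans (add_le_add le_rfl h3)
    have hfin : ENNReal.ofReal c0 * Ex σ (fun _ _ => 1) ≠ ∞ :=
      ENNReal.mul_ne_top ENNReal.ofReal_ne_top M.Zt
    have h5 := (ENNReal.add_le_add_iff_right hfin).1 h4
    have h6 : ENNReal.ofReal c0 ≤ Ex σ (fun x om => ind (Spec.OT μ r x0 x om)) /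
        Ex σ (fun _ _ => 1) := by
      rw [ENNReal.le_div_iff_mul_le (Or.inl M.Z0) (Or.inl M.Zt)]
      exact h5
    have hle : Ex σ (fun x om => ind (Spec.OT μ r x0 x om)) ≤ Ex σ (fun _ _ => 1) :=
      Ex_mono fun x om _ => ind_le_one _
    have hne : Ex σ (fun x om => ind (Spec.OT μ r x0 x om)) / Ex σ (fun _ _ => 1) ≠ ∞ :=
      ne_top_of_le_ne_top ENNReal.one_ne_top (ENNReal.div_le_of_le_mul (by rwa [one_mul]))
    exact (ENNReal.ofReal_le_iff_le_toReal hne).1 h6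
  · intro y hy z hz
    rw [mem_ball] at hy ⊢
    have h3 := H459.sd_tri x0 y z
    have h4 : sd y z ≤ 1 := H459.sd_adj hz
    omega
  · intro z hz
    rw [hβ]
    unfold uB
    rw [if_neg]
    intro hmem
    obtain ⟨w, hw, rfl⟩ := Finset.mem_image.1 hmem
    apply hz
    have h3 := box_ball (N := N) hw
    rwa [hx0] at h3
  · intro z hz
    rw [hγ]
    show 4 / 3 * uB N p q (2 * (2 * r + 1)) z - 1 / 3 * uB N p q (2 * r + 1) z = 0
    by_cases h3 : z ∈ (Bx p q (2 * (2 * r + 1))).image (pt N)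
    · have h4 : z ∈ (Bx p q (2 * r + 1)).image (pt N) := by
        obtain ⟨w, hw, rfl⟩ := Finset.mem_image.1 h3
        rw [mem_ball, ← hx0] at hz
        exact Finset.mem_image.2 ⟨w, mem_small (by omega) hw hz, rfl⟩
      unfold uB
      rw [if_pos h3, if_pos h4]
      push_cast
      have : (0 : ℝ) < 2 * (r : ℝ) + 1 := by positivity
      field_simp
      norm_num
    · have h4 : z ∉ (Bx p q (2 * r + 1)).image (pt N) := by
        intro h4
        apply h3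
        refine Finset.image_subset_image ?_ h4
        intro w hw
        rw [Bx, mem_product, mem_Ico, mem_Ico] at hw ⊢
        push_cast at hw ⊢
        omega
      unfold uB
      rw [if_neg h3, if_neg h4]
      ring

end tor

/-- **A6 from the circuits** -/
theorem a6_of {b1 b2 a : ℝ} (hb1 : 0 < b1) (hC : Circ b1 b2 a) : Spec.ThmA6 b1 b2 a := by
  obtain ⟨c, hc, A₁, hC⟩ := hC
  set bb : ℝ := max b2 1 with hbb
  have hbb0 : 0 < bb := lt_of_lt_of_le one_pos (le_max_right _ _)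
  obtain ⟨k, hk1, hk2, hk⟩ := num_ex hc hbb0 A₁
  have hA1 : A₁ ≤ 8 * 2 ^ k := by
    have h1 : k < 2 ^ k := Nat.lt_two_pow_self
    omega
  obtain ⟨W₀, hW₀⟩ := hC (8 * 2 ^ k) hA1
  refine ⟨max W₀ (8 * 2 ^ k), fun W hW => ?_⟩
  obtain ⟨ys, X, hys, hX⟩ := hW₀ W ((le_max_left _ _).trans hW)
  have hkR : (0 : ℝ) < k := by exact_mod_cast hk2
  obtain ⟨T, hT⟩ := exists_nat_ge (8 * 2 ^ k *
    (3 * (Real.sqrt ((k : ℝ) / 8040 / 2) / (152 * bb)) + 1))
  refine ⟨c * ((k : ℝ) / 8040) ^ 2 / (4608 * (3 * ((k : ℝ) + 3) ^ 2 * bb + 2) ^ 2),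
    Real.sqrt ((k : ℝ) / 8040 / 2) / (8 * (8 * 2 ^ k) ^ 2), ys, 8 * 2 ^ k,
    X + T + 3 * (8 * 2 ^ k) + 8, by positivity, ?_, hys, ?_, ?_, ?_⟩
  · have := Real.sqrt_pos.2 (by positivity : 0 < (k : ℝ) / 8040 / 2)
    positivity
  · exact Nat.le_mul_of_pos_right 8 (by positivity)
  · omega
  · intro N _ b hb ξ y hR x0
    have hb0 : 0 < b := hb1.trans_le hR.hb1
    have hRX : X ≤ ξ := by have := hR.hX; omega
    have hξ8 : 3 * (8 * 2 ^ k) ≤ ξ := by have := hR.hX; omega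
    have hξT : T ≤ ξ := by have := hR.hX; omega
    obtain ⟨K, hK⟩ := hR.hd
    have hξ0 : 0 < ξ := by
      have : 0 < 3 * (8 * 2 ^ k) := by positivity
      omega
    have hK8 : X + 8 ≤ K := by
      have h1 := hR.hK
      rw [hK, mul_comm ξ K] at h1
      have h3 := Nat.le_of_mul_le_mul_right h1 hξ0
      omega
    have hR' : Spec.Rng b1 b2 a W ys X N b ξ y :=
      { hb1 := hR.hb1
        hb2 := hR.hb2
        hX := hRX
        hK := by
          rw [hK, mul_comm ξ K]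
          exact Nat.mul_le_mul_right ξ (by omega)
        hd := hR.hd
        y0 := hR.y0
        y1 := hR.y1
        hyp := hR.hyp }
    exact mass_tor hb0 (hR.hb2.trans (le_max_left _ _)) hc hk2 hk (K := K)
      (by rw [hK, mul_comm]) (by omega) ((le_max_right _ _).trans hW) hR.hyp.h2 hξ8
      (hT.trans (by exact_mod_cast hξT)) x0 (hX N b hb0.le ξ y hR' x0)

end Vale.Agent.P159.TM.H58
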